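import Vale.Agent.P216.E539.Sec
import Vale.Agent.P216.LS.Maps

/-!
# P216-E, block [E3a] : a square root of the holonomy, if there is no sweep
-/

open Set Filter Topology
open scoped ComplexConjugate

namespace Vale.Agent.P216.E539

open Vale.Agent.P216.L250 hiding rev rev_mem
open Vale.Agent.P216.LS Vale.Agent.P216.H288
open Vale.Agent.P216.H250 (PF cat cat_of_le cat_of_lt cat_mem PF.mono PF.zero PF.last
  PF.cont const_mem)

variable {M : Type} [MetricSpace M] {κ : M → M → ℂ} {A r ρ : ℝ} {x₀ : M} {T T' : ℝ}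
  {w : ℝ → M}

/-! ### Moore loops as loops -/

/-- The loop of a Moore loop, time `T`. -/
noncomputable def mkL (T : ℝ) (w : ℝ → M) : LM M :=
  open Classical in
  if h : ∃ x₀ : M, w ∈ PF x₀ x₀ T then
    ⟨AddCircle.liftIco 1 0 (fun t => w (t * T)),
      AddCircle.liftIco_continuous (by
        obtain ⟨x₀, h⟩ := h
        rw [zero_mul, zero_add, one_mul, PF.zero h, PF.last h])
        (by
          obtain ⟨x₀, h⟩ := h
          exact ((PF.cont h).comp (continuous_mul_const T)).continuousOn)⟩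
  else cst (w 0)

theorem fn_mkL (h : w ∈ PF x₀ x₀ T) {t : ℝ} (h0 : 0 ≤ t) (h1 : t ≤ 1) :
    fn (mkL T w) t = w (t * T) := by
  have hdef : mkL T w = ⟨AddCircle.liftIco 1 0 (fun t => w (t * T)),
      AddCircle.liftIco_continuous (by
        rw [zero_mul, zero_add, one_mul, PF.zero h, PF.last h])
        ((PF.cont h).comp (continuous_mul_const T)).continuousOn⟩ := dif_pos ⟨x₀, h⟩
  have key : ∀ t : ℝ, 0 ≤ t → t < 1 → fn (mkL T w) t = w (t * T) := by
    intro t h0 h1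
    rw [hdef]
    exact AddCircle.liftIco_coe_apply (f := fun t => w (t * T)) (by simpa using ⟨h0, h1⟩)
  rcases h1.eq_or_lt with rfl | h1
  · rw [fn_one, key 0 le_rfl one_pos, zero_mul, one_mul, PF.zero h, PF.last h]
  · exact key t h0 h1

theorem mkL_mem (h : w ∈ PF x₀ x₀ T) : mkL T w ∈ XE M T := by
  refine hasE_of_cert (fn_periodic _) (e := fun t => t * T ^ 2) ?_ (by ring)
  intro s t hs hst ht
  rw [fn_mkL h hs (hst.trans ht), fn_mkL h (hs.trans hst) ht]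
  have h1 := h.1 (s * T) (t * T)
  rw [← sub_mul, abs_mul, abs_sub_comm, abs_of_nonneg (sub_nonneg.2 hst)] at h1
  calc dist (w (s * T)) (w (t * T)) ^ 2 ≤ ((t - s) * |T|) ^ 2 :=
        pow_le_pow_left₀ dist_nonneg h1 2
    _ = (t - s) * (t * T ^ 2 - s * T ^ 2) := by rw [mul_pow, sq_abs]; ring

theorem fn_mkL_zero (h : w ∈ PF x₀ x₀ T) : fn (mkL T w) 0 = x₀ := by
  rw [fn_mkL h le_rfl zero_le_one, zero_mul, PF.zero h]

theorem hol_mkL (hκ : Ker κ A r) (hT : 0 ≤ T) (h : w ∈ PF x₀ x₀ T) :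
    hκ.toHol.hol (mkL T w) = U κ w 0 T := by
  rw [hκ.toHol_hol (finE_of_mem (mkL_mem h)), hol]
  have e1 := hκ.U_comp (hasE_lip h.1) (mkL_mem h) (φ := fun t => t * T) (L := T) zero_le_one
    (fun x y _ hxy _ => ⟨mul_le_mul_of_nonneg_right hxy hT, le_of_eq (by ring)⟩)
    fun x h1 h2 => fn_mkL h h1 h2
  rw [e1, zero_mul, one_mul]

theorem continuousOn_mkL [CompactSpace M] (hT : 0 ≤ T) {X : Type} [TopologicalSpace X]
    {S : Set X} {g : X → ℝ → M} (hg : ContinuousOn g S) (hm : ∀ x ∈ S, g x ∈ PF x₀ x₀ T) :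
    ContinuousOn (fun x => mkL T (g x)) S := by
  refine continuousOn_of_pointwise hT (fun x hx => mkL_mem (hm x hx)) fun t => ?_
  have h0 := Int.fract_nonneg t
  have h1 := (Int.fract_lt_one t).le
  refine ContinuousOn.congr (f := fun x => g x (Int.fract t * T)) ?_ fun x hx => ?_
  · exact (continuous_apply _).comp_continuousOn hg
  · have h2 := (fn_periodic (mkL T (g x))).sub_zsmul_eq (x := t) ⌊t⌋
    simp only [zsmul_eq_mul, mul_one] at h2
    have h3 := fn_mkL (hm x hx) h0 h1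
    simp only
    rw [← h2, ← h3]
    rfl

/-! ### The double cover -/

/-- Moore loops with a square root of the holonomy. -/
def EE (κ : M → M → ℂ) (x₀ : M) (T : ℝ) : Set ((ℝ → M) × ℂ) :=
  {p | p.1 ∈ PF x₀ x₀ T ∧ p.2 ^ 2 = U κ p.1 0 T}

theorem EE.mono (h : Ker κ A r) (hT : 0 ≤ T) (hTT : T ≤ T') : EE κ x₀ T ⊆ EE κ x₀ T' :=
  fun p hp => ⟨PF.mono hTT hp.1, by rw [hp.2, U_extend h hT hTT hp.1]⟩

/-- Multiplication of the square roots by a constant. -/
theorem EE.mul {p q : (ℝ → M) × ℂ} (h : JoinedIn (EE κ x₀ T) p q) {a : ℂ} (ha : a ^ 2 = 1) :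
    JoinedIn (EE κ x₀ T) (p.1, p.2 * a) (q.1, q.2 * a) := by
  refine H250.joinedIn_map (f := fun p : (ℝ → M) × ℂ => (p.1, p.2 * a)) h
    (by fun_prop : Continuous fun p : (ℝ → M) × ℂ => (p.1, p.2 * a)).continuousOn ?_
  intro p hp
  exact ⟨hp.1, by simp only; rw [mul_pow, ha, mul_one, hp.2]⟩

/-- **No sweep**: the square root `- 1` of the holonomy of the constant loop is not reached. -/
theorem no_joined [CompactSpace M] (h : Ker κ A r)
    (hno : ∀ b w lam, 0 ≤ b → ¬ WeakSweep h.toHol x₀ b w lam) (hT : 0 ≤ T) {z z' : ℂ}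
    (hj : JoinedIn (EE κ x₀ T) (w, z) (w, z')) : z' = z := by
  obtain ⟨γ, hγ⟩ := hj
  let g : ℝ → (ℝ → M) × ℂ := fun τ => γ.extend τ
  have hg : ∀ τ ∈ Icc (0 : ℝ) 1, g τ ∈ EE κ x₀ T := fun τ hτ => by
    have : g τ = γ ⟨τ, hτ⟩ := γ.extend_apply hτ
    rw [this]
    exact hγ _
  have hgc : ContinuousOn g (Icc 0 1) := γ.continuous_extend.continuousOn
  have e0 : g 0 = (w, z) := γ.extend_zero
  have e1 : g 1 = (w, z') := γ.extend_one
  have h0 : z ^ 2 = U κ w 0 T := by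
    have := (hg 0 ⟨le_rfl, zero_le_one⟩).2
    rwa [e0] at this
  have h1 : z' ^ 2 = U κ w 0 T := by
    have := (hg 1 ⟨zero_le_one, le_rfl⟩).2
    rwa [e1] at this
  rcases sq_eq_sq_iff_eq_or_eq_neg.1 (h1.trans h0.symm) with h2 | h2
  · exact h2
  · exfalso
    refine hno T (fun τ => mkL T (g τ).1) (fun τ => (g τ).2) hT ⟨?_, ?_, ?_, ?_, ?_, ?_, ?_⟩
    · exact continuousOn_mkL hT (continuous_fst.comp_continuousOn hgc) fun τ hτ => (hg τ hτ).1
    · exact fun τ hτ => fn_mkL_zero (hg τ hτ).1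
    · exact fun τ hτ => mkL_mem (hg τ hτ).1
    · simp only [e0, e1]
    · exact continuous_snd.comp_continuousOn hgc
    · intro τ hτ
      rw [hol_mkL h hT (hg τ hτ).1, (hg τ hτ).2]
    · simp only [e0, e1]
      exact h2

/-- Lift along the path space. -/
def Lf (κ : M → M → ℂ) (x₀ : M) (w : ℝ → M) (z : ℂ) : Prop :=
  ∃ T, 0 ≤ T ∧ JoinedIn (EE κ x₀ T) (fun _ => x₀, 1) (w, z)

theorem Lf.unique [CompactSpace M] (h : Ker κ A r)
    (hno : ∀ b w lam, 0 ≤ b → ¬ WeakSweep h.toHol x₀ b w lam) {z z' : ℂ} (hz : Lf κ x₀ w z)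
    (hz' : Lf κ x₀ w z') : z' = z := by
  obtain ⟨T, hT, hj⟩ := hz
  obtain ⟨T', hT', hj'⟩ := hz'
  exact no_joined h hno (le_max_of_le_left hT)
    ((hj.mono (EE.mono h hT (le_max_left T T'))).symm.trans
      (hj'.mono (EE.mono h hT' (le_max_right T T'))))

theorem exists_Lf [CompactSpace M] [SimplyConnectedSpace M] (hρ : 0 < ρ) (hU : UniqSeg M ρ)
    (h : Ker κ A r) (hT : 0 ≤ T) (hw : w ∈ PF x₀ x₀ T) : ∃ z, Lf κ x₀ w z := by
  obtain ⟨D, hD, -, hj⟩ := H250.exists_joinedIn hρ hU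
  obtain ⟨γ, hγ⟩ := hj x₀ x₀ T hT (fun _ => x₀) (const_mem x₀ T) w hw
  let g : ℝ → ℝ → M := fun τ => γ.extend τ
  have hg : ∀ τ ∈ Icc (0 : ℝ) 1, g τ ∈ PF x₀ x₀ (T + D) := fun τ hτ => by
    have : g τ = γ ⟨τ, hτ⟩ := γ.extend_apply hτ
    rw [this]
    exact hγ _
  have hgc : ContinuousOn g (Icc 0 1) := γ.continuous_extend.continuousOn
  have e0 : g 0 = fun _ => x₀ := γ.extend_zero
  have e1 : g 1 = w := γ.extend_one
  obtain ⟨μ, h1, h2, h3⟩ := exists_lift_sqrt (continuousOn_U h (by linarith) hgc hg)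
    (fun τ _ => h.norm_U _ _ _) (by
      simp only [e0]
      exact U_const h x₀ _ (by linarith))
  refine ⟨μ 1, T + D, by linarith, JoinedIn.ofLine (f := fun τ => (g τ, μ τ)) (hgc.prodMk h1)
    (by simp only [e0, h3]) (by simp only [e1]) ?_⟩
  rintro _ ⟨τ, hτ, rfl⟩
  exact ⟨hg τ hτ, h2 τ hτ⟩

/-- **[E3a].** -/
theorem e3a (M : Type) [MetricSpace M] [CompactSpace M] [SimplyConnectedSpace M] :
    H494E.E3aStmt M := by
  classical
  intro ρ hρ hU κ A r h x₀ hno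
  let s : (ℝ → M) → ℂ := fun w => if hw : ∃ z, Lf κ x₀ w z then hw.choose else 0
  have hs : ∀ w z, Lf κ x₀ w z → s w = z := by
    intro w z hz
    have h1 : s w = (⟨z, hz⟩ : ∃ z, Lf κ x₀ w z).choose := dif_pos ⟨z, hz⟩
    rw [h1]
    exact hz.unique h hno (⟨z, hz⟩ : ∃ z, Lf κ x₀ w z).choose_spec
  refine ⟨s, ?_, ?_⟩
  · refine hs _ _ ⟨0, le_rfl, JoinedIn.refl ⟨const_mem x₀ 0, ?_⟩⟩
    simp only
    rw [U_const h x₀ 0 le_rfl, one_pow]
  · intro t γ μ ht hγ hm hμ hsq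
    have m0 := hm 0 ⟨le_rfl, zero_le_one⟩
    obtain ⟨z, hz⟩ := exists_Lf hρ hU h ht m0
    have hμ0 : μ 0 ≠ 0 := fun h0 => by
      have h1 := hsq 0 ⟨le_rfl, zero_le_one⟩
      have h2 := h.norm_U (γ 0) 0 t
      rw [← h1, h0] at h2
      norm_num at h2
    have hzz := hz
    obtain ⟨T, hT, hj⟩ := hz
    have hz2 : z ^ 2 = μ 0 ^ 2 := by
      have h1 := hj.target_mem.2
      simp only at h1
      have h2 := (EE.mono h hT (le_max_left T t) hj.target_mem).2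
      simp only at h2
      rw [h2, U_extend h ht (le_max_right T t) m0, hsq 0 ⟨le_rfl, zero_le_one⟩]
    have j1 : JoinedIn (EE κ x₀ t) (γ 0, μ 0) (γ 1, μ 1) := by
      refine JoinedIn.ofLine (f := fun τ => (γ τ, μ τ)) (hγ.prodMk hμ) rfl rfl ?_
      rintro _ ⟨τ, hτ, rfl⟩
      exact ⟨hm τ hτ, hsq τ hτ⟩
    have j2 := EE.mul j1 (a := z / μ 0) (by rw [div_pow, hz2, div_self (pow_ne_zero 2 hμ0)])
    simp only [mul_div_cancel₀ _ hμ0] at j2
    have h3 := hs (γ 1) (μ 1 * (z / μ 0)) ⟨max T t, le_max_of_le_left hT,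
      (hj.mono (EE.mono h hT (le_max_left T t))).trans (j2.mono (EE.mono h ht (le_max_right T t)))⟩
    rw [h3, hs (γ 0) z hzz]
    field_simp

end Vale.Agent.P216.E539
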