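import Vale.Agent.P216.E539.Sec

/-!
# P216-E, block [E3b]
-/

open Set Filter Topology
open scoped ComplexConjugate

namespace Vale.Agent.P216.E539

open Vale.Agent.P216.L250 hiding rev rev_mem
open Vale.Agent.P216.LS
open Vale.Agent.P216.H250 (PF cat cat_of_le cat_of_lt cat_mem rev rev_mem PF.mono PF.zero PF.last
  PF.cont const_mem sg sg_mem cat_assoc)

variable {M : Type} [MetricSpace M] {κ : M → M → ℂ} {A r ρ : ℝ} {x₀ : M} {σ : (ℝ → M) → ℂ}

/-- The loop `c x`, segment from `x` to `y`, `c y` backwards. -/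
noncomputable def ell (D : ℝ) (c : M → ℝ → M) (x y : M) : ℝ → M :=
  cat (D + dist x y) (cat D (c x) (sg x y (dist x y))) (rev D (c y))

theorem dist_eq_mem {x y : M} (hU : UniqSeg M ρ) (h : dist x y < ρ) :
    sg x y (dist x y) ∈ PF x y (dist x y) := sg_mem hU h le_rfl

/-- The square of the root on the loop `ell`. -/
theorem ell_sq [CompactSpace M] [SimplyConnectedSpace M] (hρ : 0 < ρ) (hU : UniqSeg M ρ)
    (h : Ker κ A r) (hs : H494E.IsSec κ x₀ σ) {D : ℝ} (hD : 0 ≤ D) {c : M → ℝ → M}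
    (hc : ∀ x, c x ∈ PF x₀ x D) {x y : M} (hxy : dist x y < ρ) (hr : dist x y < r) :
    ‖σ (ell D c x y) ^ 2 - U κ (c x) 0 D * κ x y * conj (U κ (c y) 0 D)‖ ≤
      A * dist x y ^ 2 := by
  have m1 := dist_eq_mem hU hxy
  have m2 := cat_mem hD dist_nonneg (hc x) m1
  have m3 := cat_mem (by positivity) hD m2 (rev_mem (hc y))
  rw [ell, sec_sq hρ hU h hs (by positivity) m3, U_cat h (by positivity) hD m2 (rev_mem (hc y)),
    U_cat h hD dist_nonneg (hc x) m1, U_rev h hD (hc y)]
  have h1 := U_near_lip h m1.1 (x := 0) (y := dist x y) dist_nonneg (by rwa [sub_zero])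
  rw [PF.zero m1, PF.last m1, sub_zero] at h1
  have e : U κ (c x) 0 D * U κ (sg x y (dist x y)) 0 (dist x y) * conj (U κ (c y) 0 D) -
      U κ (c x) 0 D * κ x y * conj (U κ (c y) 0 D) =
      U κ (c x) 0 D * (U κ (sg x y (dist x y)) 0 (dist x y) - κ x y) * conj (U κ (c y) 0 D) := by
    ring
  rw [e, norm_mul, norm_mul, RCLike.norm_conj, h.norm_U, h.norm_U, one_mul, mul_one]
  exact h1

/-- The triangle. -/
theorem ell_tri [CompactSpace M] [SimplyConnectedSpace M] (hρ : 0 < ρ) (hU : UniqSeg M ρ)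
    (h : Ker κ A r) (hs : H494E.IsSec κ x₀ σ) {D : ℝ} (hD : 0 ≤ D) {c : M → ℝ → M}
    (hc : ∀ x, c x ∈ PF x₀ x D) {x y z : M} (hxyz : dist x y + dist y z < ρ)
    (hr : dist x y + dist y z < r) (hA : A * (dist x y + dist y z) ^ 2 < 1) :
    ‖σ (ell D c x y) * σ (ell D c y z) - σ (ell D c x z)‖ ≤
      2 * (A * (dist x y + dist y z) ^ 2) := by
  set d1 := dist x y with hd1
  set d2 := dist y z with hd2
  set d3 := dist x z with hd3
  have n1 : 0 ≤ d1 := dist_nonneg
  have n2 : 0 ≤ d2 := dist_nonneg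
  have n3 : 0 ≤ d3 := dist_nonneg
  have t3 : d3 ≤ d1 + d2 := dist_triangle x y z
  have s1 : sg x y d1 ∈ PF x y d1 := dist_eq_mem hU (by rw [← hd1]; linarith)
  have s2 : sg y z d2 ∈ PF y z d2 := dist_eq_mem hU (by rw [← hd2]; linarith)
  have s3 : sg x z d3 ∈ PF x z d3 := dist_eq_mem hU (by rw [← hd3]; linarith)
  have cy' := rev_mem (hc y)
  have cz' := rev_mem (hc z)
  set p : ℝ → M := cat D (c x) (sg x y d1) with hp
  set q : ℝ → M := cat d2 (sg y z d2) (rev D (c z)) with hq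
  have mp : p ∈ PF x₀ y (D + d1) := cat_mem hD n1 (hc x) s1
  have mq : q ∈ PF y x₀ (d2 + D) := cat_mem n2 hD s2 cz'
  have mxy : ell D c x y ∈ PF x₀ x₀ (D + d1 + D) := cat_mem (by linarith) hD mp cy'
  have myz : ell D c y z ∈ PF x₀ x₀ (D + d2 + D) :=
    cat_mem (by linarith) hD (cat_mem hD n2 (hc y) s2) cz'
  -- the product
  have e1 : cat (D + d1 + D) (ell D c x y) (ell D c y z) =
      cat (D + d1) p (cat (D + D) (cat D (rev D (c y)) (c y)) q) := by
    rw [ell, cat_assoc hD, ell, cat_assoc n2, cat_assoc hD]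
  have k0 : σ (ell D c x y) * σ (ell D c y z) =
      σ (cat (D + d1) p (cat (D + D) (cat D (rev D (c y)) (c y)) q)) := by
    rw [← sec_mul hρ hU h hs (by linarith) (by linarith) mxy myz, e1]
  -- the spur
  have j1 := PV.spur h hD (hc y)
  have j2 := PV.cat_left h (by linarith : 0 ≤ D + D) (by linarith : 0 ≤ d2 + D) j1 mq
    (S' := {U κ q 0 (d2 + D)}) (fun z hz => by
      rw [Set.mem_singleton_iff.1 hz, one_mul]; rfl)
  have j3 := PV.cat_right h (by linarith : 0 ≤ D + d1) (by linarith) mp j2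
    (S' := {U κ p 0 (D + d1) * U κ q 0 (d2 + D)}) (fun z hz => by
      rw [Set.mem_singleton_iff.1 hz]; rfl)
  have k1 := sec_thin h hs (by linarith) j3
  have j4 := PV.wait h le_rfl (by linarith : 0 ≤ D + D) (by linarith : 0 ≤ d2 + D)
    (const_mem y 0) mq
  rw [H250.cat_const mq, U_const h y 0 le_rfl, one_mul] at j4
  have j5 := PV.cat_right h (by linarith : 0 ≤ D + d1) (by linarith) mp j4
    (S' := {U κ p 0 (D + d1) * U κ q 0 (d2 + D)}) (fun z hz => by
      rw [Set.mem_singleton_iff.1 hz]; rfl)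
  have k2 := sec_thin h hs (by linarith) j5
  have e2 : cat (D + d1) p q = cat D (c x) (cat (d1 + d2) (cat d1 (sg x y d1) (sg y z d2))
      (rev D (c z))) := by
    rw [hp, hq, cat_assoc n1, cat_assoc n2]
  rw [e2] at k2
  -- the small triangle
  have s12 : cat d1 (sg x y d1) (sg y z d2) ∈ PF x z (d1 + d2) := cat_mem n1 n2 s1 s2
  have j6 := H250.JI.small' hU (by linarith : 0 ≤ d1 + d2) hxyz s12 (PF.mono t3 s3)
  have j7 : JoinedIn (PV κ x z (d1 + d2) (Metric.closedBall (κ x z) (A * (d1 + d2) ^ 2)))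
      (cat d1 (sg x y d1) (sg y z d2)) (sg x z d3) := by
    refine j6.mono fun w hw => ⟨hw, ?_⟩
    have h1 := U_near_lip h hw.1 (x := 0) (y := d1 + d2) (by linarith) (by rwa [sub_zero])
    rw [PF.zero hw, PF.last hw, sub_zero] at h1
    rw [Metric.mem_closedBall, dist_eq_norm]
    exact h1
  have j8 := PV.cat_left h (by linarith : 0 ≤ d1 + d2) hD j7 cz'
    (S' := Metric.closedBall (κ x z * U κ (rev D (c z)) 0 D) (A * (d1 + d2) ^ 2)) (fun u hu => by
      rw [Metric.mem_closedBall, dist_eq_norm] at hu ⊢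
      rwa [← sub_mul, norm_mul, h.norm_U, mul_one])
  have j9 := PV.cat_right h hD (by linarith) (hc x) j8
    (S' := Metric.closedBall (U κ (c x) 0 D * (κ x z * U κ (rev D (c z)) 0 D))
      (A * (d1 + d2) ^ 2)) (fun u hu => by
      rw [Metric.mem_closedBall, dist_eq_norm] at hu ⊢
      rwa [← mul_sub, norm_mul, h.norm_U, one_mul])
  have k3 := sec_close h hs (by linarith) (by
    rw [norm_mul, norm_mul, h.norm_U, h.norm_U, h.norm_one]; norm_num) hA j9
  have mw : cat D (c x) (cat (d1 + d2) (cat d1 (sg x y d1) (sg y z d2)) (rev D (c z))) ∈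
      PF x₀ x₀ (D + (d1 + d2 + D)) := cat_mem hD (by linarith) (hc x)
        (cat_mem (by linarith) hD s12 cz')
  rw [norm_sec hρ hU h hs (by linarith) mw, mul_one] at k3
  -- waiting
  have j10 := PV.wait h n3 t3 hD s3 cz'
  have j11 := PV.cat_right h hD (by linarith) (hc x) j10
    (S' := {U κ (c x) 0 D * (U κ (sg x z d3) 0 d3 * U κ (rev D (c z)) 0 D)}) (fun z hz => by
      rw [Set.mem_singleton_iff.1 hz]; rfl)
  have k4 := sec_thin h hs (by linarith) j11
  have e3 : cat D (c x) (cat d3 (sg x z d3) (rev D (c z))) = ell D c x z := by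
    rw [ell, cat_assoc n3]
  rw [e3] at k4
  rw [k0, k1, k2, ← k4, norm_sub_rev]
  exact k3

/-- **[E3b].** -/
theorem e3b (M : Type) [MetricSpace M] [CompactSpace M] [SimplyConnectedSpace M] :
    H494E.E3bStmt M := by
  intro ρ hρ hU κ A r h x₀ s hs
  obtain ⟨D, hD, hne, -⟩ := H250.exists_joinedIn hρ hU
  choose c hc using fun x => hne x₀ x
  have hA := h.A_nonneg
  have hr := h.r_pos
  refine ⟨fun x y => s (ell D c x y), fun x => U κ (c x) 0 D, fun x => h.norm_U _ _ _, ?_, ?_⟩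
  · intro ε hε
    set δ : ℝ := min (min ρ r) (min 1 (ε / (A + 1))) with hδ
    have hδ0 : 0 < δ := lt_min (lt_min hρ hr) (lt_min one_pos (by positivity))
    refine ⟨δ, hδ0, fun x y hxy => ?_⟩
    have l1 : δ ≤ ρ := (min_le_left _ _).trans (min_le_left _ _)
    have l2 : δ ≤ r := (min_le_left _ _).trans (min_le_right _ _)
    have l3 : δ ≤ 1 := (min_le_right _ _).trans (min_le_left _ _)
    have l4 : δ ≤ ε / (A + 1) := (min_le_right _ _).trans (min_le_right _ _)
    refine (ell_sq hρ hU h hs hD hc (hxy.trans_le l1) (hxy.trans_le l2)).trans ?_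
    have h1 : dist x y ≤ 1 := (hxy.trans_le l3).le
    have h2 : dist x y ≤ ε / (A + 1) := (hxy.trans_le l4).le
    have h0 : 0 ≤ dist x y := dist_nonneg
    rw [le_div_iff₀ (by positivity)] at h2
    nlinarith [mul_nonneg hA h0]
  · intro ε hε
    set δ : ℝ := min (min (ρ / 2) (r / 2)) (min (1 / 4) (min 1 ε / (8 * (A + 1)))) with hδ
    have hδ0 : 0 < δ := lt_min (lt_min (by positivity) (by positivity))
      (lt_min (by norm_num) (by positivity))
    refine ⟨δ, hδ0, fun x y z hxy hyz => ?_⟩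
    have l1 : δ ≤ ρ / 2 := (min_le_left _ _).trans (min_le_left _ _)
    have l2 : δ ≤ r / 2 := (min_le_left _ _).trans (min_le_right _ _)
    have l3 : δ ≤ 1 / 4 := (min_le_right _ _).trans (min_le_left _ _)
    have l4 : δ ≤ min 1 ε / (8 * (A + 1)) := (min_le_right _ _).trans (min_le_right _ _)
    have l5 : min 1 ε ≤ 1 := min_le_left _ _
    have l6 : min 1 ε ≤ ε := min_le_right _ _
    rw [le_div_iff₀ (by positivity)] at l4
    set u : ℝ := dist x y + dist y z with hu
    have u0 : 0 ≤ u := add_nonneg dist_nonneg dist_nonneg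
    have u1 : u < 2 * δ := by linarith
    have u2 : A * u ^ 2 ≤ (A + 1) * (2 * δ) := by
      have : u ^ 2 ≤ 2 * δ := by nlinarith
      have h3 : A * u ^ 2 ≤ A * (2 * δ) := mul_le_mul_of_nonneg_left this hA
      linarith
    refine (ell_tri hρ hU h hs hD hc (by linarith) (by linarith) ?_).trans ?_
    · show A * u ^ 2 < 1
      linarith
    · show 2 * (A * u ^ 2) ≤ ε
      linarith

end Vale.Agent.P216.E539
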