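import Vale.Agent.P216.H787.Cls
import Vale.Agent.P216.N929.Fib0

/-!
# P216-E, block [E3c] : the signs of the square roots form a primitive of the cocycle modulo two
-/

open Set
open scoped ComplexConjugate Real

namespace Vale.Agent.P216.E539

open Vale.Agent.P216.Sl

/-- The number `± 1`. -/
def sg (a : ZMod 2) : ℂ := if a = 0 then 1 else -1

@[simp] theorem sg_zero : sg 0 = 1 := if_pos rfl

@[simp] theorem sg_one : sg 1 = -1 := if_neg (by decide)

theorem zmod_two (a : ZMod 2) : a = 0 ∨ a = 1 := by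
  revert a
  decide

theorem sg_add (a b : ZMod 2) : sg (a + b) = sg a * sg b := by
  have h : (1 : ZMod 2) + 1 = 0 := by decide
  rcases zmod_two a with rfl | rfl <;> rcases zmod_two b with rfl | rfl <;> simp [h]

theorem norm_sg (a : ZMod 2) : ‖sg a‖ = 1 := by
  unfold sg
  split_ifs <;> simp

theorem sg_int (n : ℤ) : sg (n : ZMod 2) = Complex.exp (π * Complex.I * n) := by
  rcases Int.even_or_odd' n with ⟨m, rfl | rfl⟩
  · have h1 : ((2 * m : ℤ) : ZMod 2) = 0 := by
      rw [ZMod.intCast_zmod_eq_zero_iff_dvd]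
      exact Dvd.intro _ rfl
    rw [h1, sg_zero]
    have h2 : (π * Complex.I * ((2 * m : ℤ) : ℂ)) = m * (2 * π * Complex.I) := by
      push_cast; ring
    rw [h2, Complex.exp_int_mul_two_pi_mul_I]
  · have h1 : ((2 * m + 1 : ℤ) : ZMod 2) = 1 := by
      have : ((2 * m : ℤ) : ZMod 2) = 0 := by
        rw [ZMod.intCast_zmod_eq_zero_iff_dvd]
        exact Dvd.intro _ rfl
      rw [Int.cast_add, this, zero_add, Int.cast_one]
    rw [h1, sg_one]
    have h2 : (π * Complex.I * ((2 * m + 1 : ℤ) : ℂ)) = m * (2 * π * Complex.I) + π * Complex.I := by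
      push_cast; ring
    rw [h2, Complex.exp_add, Complex.exp_int_mul_two_pi_mul_I, Complex.exp_pi_mul_I, one_mul]

theorem sg_ne {a b : ZMod 2} (h : a ≠ b) : ‖sg a - sg b‖ = 2 := by
  rcases zmod_two a with rfl | rfl <;> rcases zmod_two b with rfl | rfl <;>
    first | exact absurd rfl h | (simp only [sg_zero, sg_one]; norm_num)

/-- A square root close to a given one or to its opposite. -/
theorem exists_sg {s q : ℂ} {η : ℝ} (h : ‖s ^ 2 - q ^ 2‖ ≤ η ^ 2) (hη : 0 ≤ η) :
    ∃ a : ZMod 2, ‖s - sg a * q‖ ≤ η := by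
  by_contra hcon
  push Not at hcon
  have h0 := hcon 0
  have h1 := hcon 1
  rw [sg_zero, one_mul] at h0
  rw [sg_one, neg_one_mul, sub_neg_eq_add] at h1
  have h2 : ‖s ^ 2 - q ^ 2‖ = ‖s - q‖ * ‖s + q‖ := by
    rw [← norm_mul]
    congr 1
    ring
  rw [h2] at h
  nlinarith [mul_pos (sub_pos.2 h0) (sub_pos.2 h1)]

/-- Products of three numbers close to unitary numbers. -/
theorem prod_near {s t u a b c : ℂ} {η : ℝ} (hη : 0 ≤ η) (hη1 : η ≤ 1) (hs : ‖s - a‖ ≤ η)
    (ht : ‖t - b‖ ≤ η) (hu : ‖u - c‖ ≤ η) (ha : ‖a‖ = 1) (hb : ‖b‖ = 1) (hc : ‖c‖ = 1) :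
    ‖s * t * u - a * b * c‖ ≤ 7 * η := by
  have e : s * t * u - a * b * c = (s - a) * t * u + a * (t - b) * u + a * b * (u - c) := by ring
  have ht' : ‖t‖ ≤ 1 + η := by
    have := norm_add_le (t - b) b
    rw [sub_add_cancel] at this
    linarith
  have hu' : ‖u‖ ≤ 1 + η := by
    have := norm_add_le (u - c) c
    rw [sub_add_cancel] at this
    linarith
  rw [e]
  refine norm_add₃_le.trans ?_
  simp only [norm_mul, ha, hb, one_mul]
  have h1 : ‖s - a‖ * ‖t‖ * ‖u‖ ≤ η * 2 * 2 := by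
    have : ‖t‖ ≤ 2 := by linarith
    have : ‖u‖ ≤ 2 := by linarith
    gcongr
  have h2 : ‖t - b‖ * ‖u‖ ≤ η * 2 := by
    have : ‖u‖ ≤ 2 := by linarith
    gcongr
  linarith

/-- **Abstract signs.** -/
theorem exists_signs {M : Type*} [MetricSpace M] (C : M → M → M → ℤ) (e : M → M → ℝ)
    (s : M → M → ℂ) (σ : M → ℂ) (hσ : ∀ x, ‖σ x‖ = 1)
    (he : ∀ η > 0, ∃ δ > 0, ∀ x y z, dist x y < δ → dist y z < δ → dist x z < δ →
      |e x y + e y z + e z x + C x y z| ≤ η)
    (ht : ∀ η > 0, ∃ δ > 0, ∀ x y z, dist x y < δ → dist y z < δ → dist x z < δ →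
      ‖s x y * s y z * s z x - 1‖ ≤ η)
    (hs : ∀ η > 0, ∃ δ > 0, ∀ x y, dist x y < δ →
      ‖s x y ^ 2 - Complex.exp (2 * π * Complex.I * e x y) * σ y ^ 2 * conj (σ x) ^ 2‖ ≤ η) :
    ∃ g : M → M → ZMod 2, ∃ δ > 0, ∀ x y z, dist x y < δ → dist y z < δ → dist x z < δ →
      (C x y z : ZMod 2) = g x y + g y z + g z x := by
  classical
  obtain ⟨δ₁, hδ₁, h1⟩ := he (1 / 16) (by norm_num)
  obtain ⟨δ₂, hδ₂, h2⟩ := ht (1 / 16) (by norm_num)
  obtain ⟨δ₃, hδ₃, h3⟩ := hs ((1 / 16) ^ 2) (by norm_num)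
  let q : M → M → ℂ := fun x y => Complex.exp (π * Complex.I * e x y) * σ y * conj (σ x)
  have hq : ∀ x y, ‖q x y‖ = 1 := by
    intro x y
    have h4 : (π * Complex.I * e x y : ℂ) = ((π * e x y : ℝ) : ℂ) * Complex.I := by
      push_cast; ring
    simp only [q]
    rw [norm_mul, norm_mul, RCLike.norm_conj, hσ, hσ, h4, Complex.norm_exp_ofReal_mul_I]
    norm_num
  have hex : ∀ x y, ∃ a : ZMod 2, dist x y < δ₃ → ‖s x y - sg a * q x y‖ ≤ 1 / 16 := by
    intro x y
    by_cases hd : dist x y < δ₃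
    · obtain ⟨a, ha⟩ := exists_sg (s := s x y) (q := q x y) (η := 1 / 16) (by
        refine le_trans (le_of_eq ?_) (h3 x y hd)
        congr 2
        simp only [q]
        rw [mul_pow, mul_pow, ← Complex.exp_nat_mul]
        congr 3
        push_cast
        ring) (by norm_num)
      exact ⟨a, fun _ => ha⟩
    · exact ⟨0, fun h => absurd h hd⟩
  choose g hg using hex
  refine ⟨g, min δ₁ (min δ₂ δ₃), lt_min hδ₁ (lt_min hδ₂ hδ₃), fun x y z hxy hyz hxz => ?_⟩
  have m1 : min δ₁ (min δ₂ δ₃) ≤ δ₁ := min_le_left _ _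
  have m2 : min δ₁ (min δ₂ δ₃) ≤ δ₂ := (min_le_right _ _).trans (min_le_left _ _)
  have m3 : min δ₁ (min δ₂ δ₃) ≤ δ₃ := (min_le_right _ _).trans (min_le_right _ _)
  have k1 := h1 x y z (hxy.trans_le m1) (hyz.trans_le m1) (hxz.trans_le m1)
  have k2 := h2 x y z (hxy.trans_le m2) (hyz.trans_le m2) (hxz.trans_le m2)
  have a1 := hg x y (hxy.trans_le m3)
  have a2 := hg y z (hyz.trans_le m3)
  have a3 := hg z x (by rw [dist_comm]; exact hxz.trans_le m3)
  have n1 : ∀ x y, ‖sg (g x y) * q x y‖ = 1 := fun x y => by rw [norm_mul, norm_sg, hq, one_mul]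
  have k3 := prod_near (by norm_num) (by norm_num) a1 a2 a3 (n1 x y) (n1 y z) (n1 z x)
  -- the product of the three numbers `q`
  have k4 : q x y * q y z * q z x = Complex.exp (π * Complex.I * (e x y + e y z + e z x : ℝ)) := by
    have c1 : ∀ x, σ x * conj (σ x) = 1 := fun x => by
      rw [Complex.mul_conj, Complex.normSq_eq_norm_sq, hσ]; norm_num
    have c2 : (π * Complex.I * ((e x y + e y z + e z x : ℝ) : ℂ)) =
        π * Complex.I * e x y + π * Complex.I * e y z + π * Complex.I * e z x := by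
      push_cast; ring
    rw [c2, Complex.exp_add, Complex.exp_add]
    simp only [q]
    calc _ = Complex.exp (π * Complex.I * e x y) * Complex.exp (π * Complex.I * e y z) *
          Complex.exp (π * Complex.I * e z x) * (σ x * conj (σ x)) * (σ y * conj (σ y)) *
          (σ z * conj (σ z)) := by ring
      _ = _ := by rw [c1, c1, c1]; ring
  set E : ℝ := e x y + e y z + e z x with hE
  -- compare with the sign of `C`
  have k5 : ‖Complex.exp (π * Complex.I * E) - sg (C x y z)‖ ≤ 1 / 4 := by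
    have c3 : sg (C x y z) = Complex.exp (π * Complex.I * ((-(C x y z : ℤ) : ℤ) : ℂ)) := by
      rw [← sg_int, Int.cast_neg]
      congr 1
      exact (ZMod.neg_eq_self_mod_two _).symm
    have c4 : Complex.exp (π * Complex.I * E) =
        Complex.exp (π * Complex.I * ((-(C x y z : ℤ) : ℤ) : ℂ)) *
          Complex.exp (((π * (E + C x y z) : ℝ) : ℂ) * Complex.I) := by
      rw [← Complex.exp_add]
      congr 1
      push_cast
      ring
    rw [c4, ← c3]
    have c5 : sg (C x y z) * Complex.exp (((π * (E + C x y z) : ℝ) : ℂ) * Complex.I) -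
        sg (C x y z) = sg (C x y z) *
          (Complex.exp (((π * (E + C x y z) : ℝ) : ℂ) * Complex.I) - 1) := by ring
    rw [c5, norm_mul, norm_sg, one_mul, mul_comm (((π * (E + C x y z) : ℝ) : ℂ)) Complex.I]
    refine (Real.norm_exp_I_mul_ofReal_sub_one_le).trans ?_
    rw [Real.norm_eq_abs, abs_mul, abs_of_pos Real.pi_pos]
    have := Real.pi_lt_four
    nlinarith [abs_nonneg (E + (C x y z : ℝ)), Real.pi_pos]
  by_contra hcon
  have k6 : sg (g x y) * q x y * (sg (g y z) * q y z) * (sg (g z x) * q z x) =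
      sg (g x y + g y z + g z x) * Complex.exp (π * Complex.I * E) := by
    rw [sg_add, sg_add, ← k4]
    ring
  rw [k6] at k3
  have k7 : ‖sg (g x y + g y z + g z x) * sg (C x y z) - 1‖ ≤ 1 / 16 + 7 * (1 / 16) + 1 / 4 := by
    have c6 : sg (g x y + g y z + g z x) * sg (C x y z) - 1 =
        (s x y * s y z * s z x - 1) - (s x y * s y z * s z x -
          sg (g x y + g y z + g z x) * Complex.exp (π * Complex.I * E)) -
        sg (g x y + g y z + g z x) * (Complex.exp (π * Complex.I * E) - sg (C x y z)) := by ring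
    rw [c6]
    refine (norm_sub_le _ _).trans ?_
    rw [norm_mul, norm_sg, one_mul]
    refine add_le_add ((norm_sub_le _ _).trans (add_le_add k2 k3)) k5
  rw [← sg_add] at k7
  have k8 : g x y + g y z + g z x + (C x y z : ZMod 2) ≠ 0 := by
    intro h0
    apply hcon
    have := eq_neg_of_add_eq_zero_left h0
    rw [this, ZMod.neg_eq_self_mod_two]
  have k9 := sg_ne k8
  rw [sg_zero] at k9
  rw [k9] at k7
  norm_num at k7

/-- The boundary of a triple. -/
theorem dl_triple {k : Type} [Field k] {α : Type} (f : List α → k) (x y z : α) :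
    dl f [x, y, z] = f [y, z] - f [x, z] + f [x, y] := by
  rw [N929.dl_cons, N929.dl_cons, N929.dl_cons, N929.dl_nil]
  ring

/-- **[E3c].** -/
theorem exL_of_signs {M : Type} [MetricSpace M] (c : List M → ℤ) {ε : ℝ} (hε : 0 < ε)
    (hc : ∀ x y z w : M, dist x y < ε → dist x z < ε → dist x w < ε → dist y z < ε →
      dist y w < ε → dist z w < ε → c [y, z, w] - c [x, z, w] + c [x, y, w] - c [x, y, z] = 0)
    (b : M → M → ℤ) (v : M → M) {r : ℝ} (hv : ∀ x, dist x (v x) ≤ r) (hr : 3 * r < ε)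
    (e : M → M → ℝ) (s : M → M → ℂ) (σ : M → ℂ) (hσ : ∀ x, ‖σ x‖ = 1)
    (he : ∀ η > 0, ∃ δ > 0, ∀ x y z, dist x y < δ → dist y z < δ → dist x z < δ →
      |e x y + e y z + e z x + ((c [v x, v y, v z] + (b (v y) (v z) - b (v x) (v z) +
        b (v x) (v y)) : ℤ) : ℝ)| ≤ η)
    (ht : ∀ η > 0, ∃ δ > 0, ∀ x y z, dist x y < δ → dist y z < δ → dist x z < δ →
      ‖s x y * s y z * s z x - 1‖ ≤ η)
    (hs : ∀ η > 0, ∃ δ > 0, ∀ x y, dist x y < δ →
      ‖s x y ^ 2 - Complex.exp (2 * π * Complex.I * e x y) * σ y ^ 2 * conj (σ x) ^ 2‖ ≤ η) :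
    ExL (univ : Set M) 2 (fun l => (c l : ZMod 2)) := by
  obtain ⟨g, δ, hδ, hg⟩ := exists_signs (fun x y z => c [v x, v y, v z] +
    (b (v y) (v z) - b (v x) (v z) + b (v x) (v y))) e s σ hσ he ht hs
  have hr0 : 0 ≤ r ∨ IsEmpty M := by
    rcases isEmpty_or_nonempty M with h | ⟨⟨x⟩⟩
    · exact Or.inr h
    · exact Or.inl (dist_nonneg.trans (hv x))
  rcases hr0 with hr0 | hM
  swap
  · refine ⟨fun _ => 0, fun h => absurd h two_ne_zero, 1, one_pos, fun l hl _ => ?_⟩
    obtain ⟨x, -⟩ := List.exists_mem_of_length_pos (by rw [hl]; norm_num : 0 < l.length)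
    exact (IsEmpty.false x).elim
  -- smallness
  set η : ℝ := min δ (min (ε - 3 * r) (ε / 3)) with hη
  have hη0 : 0 < η := lt_min hδ (lt_min (by linarith) (by linarith))
  have e1 : η ≤ δ := min_le_left _ _
  have e2 : η ≤ ε - 3 * r := (min_le_right _ _).trans (min_le_left _ _)
  have dv : ∀ x y, dist x y < η → dist x (v y) < ε ∧ dist (v x) y < ε ∧ dist (v x) (v y) < ε := by
    intro x y h
    have t1 := dist_triangle x y (v y)
    have t2 := dist_triangle (v x) x y
    have t3 := dist_triangle (v x) x (v y)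
    have h1 := hv x
    have h2 := hv y
    rw [dist_comm] at h1
    refine ⟨by linarith, by linarith, by linarith⟩
  have dv0 : ∀ x, dist x (v x) < ε := fun x => by have := hv x; linarith
  have e3 : η < ε := (min_le_right _ _).trans (min_le_right _ _) |>.trans_lt (by linarith)
  have two : (2 : ZMod 2) = 0 := by decide
  -- the symmetry of `g`
  have hsym : ∀ x y, dist x y < η → g y x = g x y := by
    intro x z h
    have a1 := hg x z x (h.trans_le e1) (by rw [dist_comm]; exact h.trans_le e1)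
      (by rw [dist_self]; exact hδ)
    have a2 := hg x x z (by rw [dist_self]; exact hδ) (h.trans_le e1) (h.trans_le e1)
    have a3 := hg x x x (by rw [dist_self]; exact hδ) (by rw [dist_self]; exact hδ)
      (by rw [dist_self]; exact hδ)
    have a4 := hc (v x) (v x) (v x) (v z) (by rw [dist_self]; exact hε)
      (by rw [dist_self]; exact hε) (dv x z h).2.2 (by rw [dist_self]; exact hε) (dv x z h).2.2
      (dv x z h).2.2
    have a5 : c [v x, v x, v z] + (b (v x) (v z) - b (v x) (v z) + b (v x) (v x)) =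
        c [v x, v x, v x] + (b (v x) (v x) - b (v x) (v x) + b (v x) (v x)) := by linarith
    rw [a5, a3] at a2
    -- `3 g x x = g x x + g x z + g z x`
    have a6 : g x z + g z x = 0 := by linear_combination g x x * two - a2
    linear_combination a6 - g x z * two
  let G : List M → ZMod 2 := fun l => match l with
    | [x, y] => g x y - (b (v x) (v y) : ZMod 2) -
        ((c [x, v x, v y] : ZMod 2) - (c [x, y, v y] : ZMod 2))
    | _ => 0
  refine ⟨G, fun h => absurd h two_ne_zero, η, hη0, fun l hl hs' => ?_⟩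
  obtain ⟨x, y, z, rfl⟩ := List.length_eq_three.1 hl
  have dxy : dist x y < η := hs'.2 x (by simp) y (by simp)
  have dyz : dist y z < η := hs'.2 y (by simp) z (by simp)
  have dxz : dist x z < η := hs'.2 x (by simp) z (by simp)
  rw [dl_triple]
  simp only [G]
  have b1 := hg x y z (dxy.trans_le e1) (dyz.trans_le e1) (dxz.trans_le e1)
  rw [hsym x z dxz] at b1
  push_cast at b1
  -- the prism
  have p1 := hc x (v x) (v y) (v z) (dv0 x) (dv x y dxy).1 (dv x z dxz).1 (dv x y dxy).2.2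
    (dv x z dxz).2.2 (dv y z dyz).2.2
  have p2 := hc x y (v y) (v z) (dxy.trans e3) (dv x y dxy).1 (dv x z dxz).1 (dv0 y)
    (dv y z dyz).1 (dv y z dyz).2.2
  have p3 := hc x y z (v z) (dxy.trans e3) (dxz.trans e3) (dv x z dxz).1 (dyz.trans e3)
    (dv y z dyz).1 (dv0 z)
  have p4 : c [v x, v y, v z] - c [x, y, z] = (c [y, v y, v z] - c [y, z, v z]) -
      (c [x, v x, v z] - c [x, z, v z]) + (c [x, v x, v y] - c [x, y, v y]) := by linarith
  have p5 := congrArg (Int.cast : ℤ → ZMod 2) p4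
  push_cast at p5
  linear_combination b1 - p5 + g x z * two

end Vale.Agent.P216.E539
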