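import Vale.Agent.P216.E539.Sweeps
import Vale.Agent.P216.H494.EGoal

/-!
# P216-E : the goal from the block E4 alone
-/

namespace Vale.Agent.P216.E539

/-- The theorem in degree two, from [E4]. -/
theorem eGoal_of_hol (hH : H494E.HolStmt) : H494E.EGoal := by
  intro E _ _ _ N _ _ _ _ _ _ _ _ h hh hQ
  obtain ⟨ρ, hρ, hs, _⟩ := Geo.exists_uniqSeg E N
  obtain ⟨H, hsw⟩ := exists_sweeps hρ hs hh hQ
  exact hH (E := E) hh hQ H hsw

end Vale.Agent.P216.E539
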