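import Vale.Agent.P216.E539.Signs
import Vale.Agent.P216.H923F.Alt
import Vale.Agent.P216.H494.EDefs

/-!
# P216-E : approximate square roots of the kernel make the cocycle exact modulo two
-/

open Set
open scoped ComplexConjugate Real

namespace Vale.Agent.P216.E539

open Vale.Agent.P216.Sl

/-- A unitary square root. -/
theorem exists_sqrt {z : ℂ} (hz : ‖z‖ = 1) : ∃ w : ℂ, ‖w‖ = 1 ∧ w ^ 2 = z := by
  obtain ⟨w, hw⟩ := IsAlgClosed.exists_pow_nat_eq z two_pos
  refine ⟨w, ?_, hw⟩
  have h : ‖w‖ ^ 2 = 1 := by rw [← norm_pow, hw, hz]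
  nlinarith [norm_nonneg w]

/-- **E2 + Roots ⊢ exactness.** -/
theorem exL_of_roots {M : Type} [MetricSpace M] (c : List M → ℤ) {ε : ℝ} (hε : 0 < ε)
    (hc : ∀ x y z w : M, dist x y < ε → dist x z < ε → dist x w < ε → dist y z < ε →
      dist y w < ε → dist z w < ε → c [y, z, w] - c [x, z, w] + c [x, y, w] - c [x, y, z] = 0)
    {b : M → M → ℤ} {κ : M → M → ℂ} {e : M → M → ℝ} {j : M → M} {A r : ℝ} (hr : 0 < r)
    (hK : H923F.KerD (fun x y z => c [x, y, z] + (b y z - b x z + b x y)) ε κ e j A r)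
    {σ : M → M → ℂ} {T : M → ℂ} (hR : H494E.Roots κ σ T) :
    ExL (univ : Set M) 2 (fun l => (c l : ZMod 2)) := by
  have hT : ∀ x, ‖conj (T x)‖ = 1 := fun x => by rw [RCLike.norm_conj, hR.norm_T]
  choose τ hτ1 hτ using fun x => exists_sqrt (hT x)
  have h16 := hK.hr
  refine exL_of_signs c hε hc b j (r := 2 * r) (fun x => (hK.hj x).le) (by linarith) e σ τ hτ1
    ?_ ?_ ?_
  · intro η hη
    have hA := hK.A_nn
    refine ⟨min r (min 1 (η / (A + 1))), lt_min hr (lt_min one_pos (by positivity)),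
      fun x y z hxy hyz _ => ?_⟩
    have h1 := hK.tri x y z (hxy.trans_le (min_le_left _ _)) (hyz.trans_le (min_le_left _ _))
    push_cast at h1 ⊢
    refine h1.trans ?_
    have h2 : dist x y ≤ η / (A + 1) :=
      (hxy.trans_le ((min_le_right _ _).trans (min_le_right _ _))).le
    have h3 : dist y z ≤ 1 := (hyz.trans_le ((min_le_right _ _).trans (min_le_left _ _))).le
    calc A * dist x y * dist y z ≤ A * (η / (A + 1)) * 1 := by gcongr
      _ = η * (A / (A + 1)) := by ring
      _ ≤ η * 1 := by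
        refine mul_le_mul_of_nonneg_left ?_ hη.le
        rw [div_le_one (by positivity)]
        linarith
      _ = η := mul_one _
  · intro η hη
    set ε' : ℝ := min (η / 5) (1 / 2) with hε'
    have hε0 : 0 < ε' := lt_min (by linarith) (by norm_num)
    have e1 : ε' ≤ η / 5 := min_le_left _ _
    have e2 : ε' ≤ 1 / 2 := min_le_right _ _
    obtain ⟨δ₁, hδ₁, h1⟩ := hR.sq ε' hε0
    obtain ⟨δ₂, hδ₂, h2⟩ := hR.tri ε' hε0
    have hnk : ∀ x y, ‖T x * κ x y * conj (T y)‖ = 1 := fun x y => by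
      rw [norm_mul, norm_mul, hR.norm_T, hT, hK.ker.norm_one, one_mul, one_mul]
    have hup : ∀ x y, dist x y < δ₁ → ‖σ x y‖ ≤ 2 ∧ 1 / 2 ≤ ‖σ x y‖ := by
      intro x y h
      have k1 := h1 x y h
      have k2 := norm_sub_norm_le (σ x y ^ 2) (T x * κ x y * conj (T y))
      have k3 := norm_sub_norm_le (T x * κ x y * conj (T y)) (σ x y ^ 2)
      rw [norm_sub_rev] at k3
      rw [hnk, norm_pow] at k2 k3
      have := norm_nonneg (σ x y)
      constructor
      · by_contra hcon
        push Not at hcon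
        nlinarith
      · by_contra hcon
        push Not at hcon
        nlinarith
    refine ⟨min δ₁ δ₂, lt_min hδ₁ hδ₂, fun x y z hxy hyz hxz => ?_⟩
    have m1 : min δ₁ δ₂ ≤ δ₁ := min_le_left _ _
    have m2 : min δ₁ δ₂ ≤ δ₂ := min_le_right _ _
    have k1 := h2 x y z (hxy.trans_le m2) (hyz.trans_le m2)
    have k2 := h2 x z x (hxz.trans_le m2) (by rw [dist_comm]; exact hxz.trans_le m2)
    have k3 := h2 x x x (by rw [dist_self]; exact hδ₂) (by rw [dist_self]; exact hδ₂)
    have u1 := (hup z x (by rw [dist_comm]; exact hxz.trans_le m1)).1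
    have u2 := (hup x x (by rw [dist_self]; exact hδ₁)).2
    have k4 : ‖σ x x - 1‖ ≤ 2 * ε' := by
      have : σ x x * σ x x - σ x x = σ x x * (σ x x - 1) := by ring
      rw [this, norm_mul] at k3
      have := norm_nonneg (σ x x - 1)
      nlinarith
    have e3 : σ x y * σ y z * σ z x - 1 = (σ x y * σ y z - σ x z) * σ z x +
        (σ x z * σ z x - σ x x) + (σ x x - 1) := by ring
    rw [e3]
    refine norm_add₃_le.trans ?_
    rw [norm_mul]
    have k5 : ‖σ x y * σ y z - σ x z‖ * ‖σ z x‖ ≤ ε' * 2 := by gcongr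
    linarith
  · intro η hη
    obtain ⟨δ₁, hδ₁, h1⟩ := hR.sq η hη
    refine ⟨min δ₁ (2 * r), lt_min hδ₁ (by linarith), fun x y hxy => ?_⟩
    have k1 := h1 x y (hxy.trans_le (min_le_left _ _))
    refine le_trans (le_of_eq ?_) k1
    have k2 := hK.eq x y (hxy.trans_le (min_le_right _ _))
    congr 2
    rw [k2, H923F.ex, ← map_pow, hτ, hτ, Complex.conj_conj]
    have k3 : (2 * π * Complex.I * e x y : ℂ) = Complex.I * ((2 * π * e x y : ℝ) : ℂ) := by
      push_cast; ring
    rw [k3]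
    ring

end Vale.Agent.P216.E539
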