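import Vale.Agent.P216.E539.UPF
import Vale.Agent.P216.H494.EDefs
import Mathlib.Analysis.SpecialFunctions.Complex.LogDeriv

/-!
# P216-E, block [E3b] : approximate square roots of the kernel from a square root of the holonomy
-/

open Set Filter Topology
open scoped ComplexConjugate BoundedContinuousFunction

namespace Vale.Agent.P216.E539

open Vale.Agent.P216.L250 hiding rev rev_mem
open Vale.Agent.P216.LS
open Vale.Agent.P216.H250 (PF cat cat_of_le cat_of_lt cat_mem rev rev_mem PF.mono PF.zero PF.last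
  PF.cont const_mem)

variable {M : Type} [MetricSpace M] {κ : M → M → ℂ} {A r ρ : ℝ} {a b c x₀ : M} {s t t' t₁ : ℝ}
  {w w' w'' : ℝ → M}

/-! ### Square roots -/

/-- The principal square root. -/
noncomputable def rt (z : ℂ) : ℂ := Complex.exp (Complex.log z / 2)

theorem rt_sq {z : ℂ} (hz : z ≠ 0) : rt z ^ 2 = z := by
  rw [rt, ← Complex.exp_nat_mul]
  push_cast
  rw [mul_div_cancel₀ _ (two_ne_zero), Complex.exp_log hz]

theorem rt_one : rt 1 = 1 := by simp [rt]

theorem continuousAt_rt {z : ℂ} (hz : z ∈ Complex.slitPlane) : ContinuousAt rt z :=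
  Complex.continuous_exp.continuousAt.comp ((continuousAt_clog hz).div_const 2)

theorem re_rt_nonneg (z : ℂ) : 0 ≤ (rt z).re := by
  rw [rt, Complex.exp_re]
  refine mul_nonneg (Real.exp_pos _).le (Real.cos_nonneg_of_mem_Icc ?_)
  have h : (Complex.log z / 2).im = z.arg / 2 := by
    have : (Complex.log z / 2) = Complex.log z / ((2 : ℝ) : ℂ) := by norm_num
    rw [this, Complex.div_ofReal_im, Complex.log_im]
  rw [h]
  have h1 := Complex.neg_pi_lt_arg z
  have h2 := Complex.arg_le_pi z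
  constructor <;> linarith

theorem norm_rt_sub_one {z : ℂ} (hz : z ≠ 0) : ‖rt z - 1‖ ≤ ‖z - 1‖ := by
  have h1 : z - 1 = (rt z - 1) * (rt z + 1) := by
    have := rt_sq hz
    linear_combination -this
  have h2 : 1 ≤ ‖rt z + 1‖ := by
    refine le_trans ?_ (Complex.re_le_norm _)
    rw [Complex.add_re, Complex.one_re]
    linarith [re_rt_nonneg z]
  rw [h1, norm_mul]
  exact le_mul_of_one_le_right (norm_nonneg _) h2

theorem mem_slit {z : ℂ} (h : ‖z - 1‖ < 1) : z ∈ Complex.slitPlane := by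
  refine Or.inl ?_
  have h1 := Complex.abs_re_le_norm (z - 1)
  rw [Complex.sub_re, Complex.one_re] at h1
  have := (abs_le.1 (h1.trans h.le)).1
  have h3 := (abs_lt.1 (h1.trans_lt h)).1
  linarith

/-- Lifting of square roots along a path of unitary numbers. -/
theorem exists_lift_sqrt {f : ℝ → ℂ} (hf : ContinuousOn f (Icc 0 1))
    (hn : ∀ τ ∈ Icc (0 : ℝ) 1, ‖f τ‖ = 1) (h0 : f 0 = 1) :
    ∃ μ : ℝ → ℂ, ContinuousOn μ (Icc 0 1) ∧ (∀ τ ∈ Icc (0 : ℝ) 1, μ τ ^ 2 = f τ) ∧ μ 0 = 1 := by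
  -- uniform continuity
  have hu := isCompact_Icc.uniformContinuousOn_of_continuous hf
  obtain ⟨δ, hδ, hd⟩ := Metric.uniformContinuousOn_iff.1 hu 1 one_pos
  obtain ⟨n, hn'⟩ := exists_nat_gt (1 / δ)
  have hn0 : (0 : ℝ) < n := lt_trans (by positivity) hn'
  have hn1 : 1 / (n : ℝ) < δ := by
    rw [div_lt_iff₀ hδ] at hn'
    rw [div_lt_iff₀ hn0]
    linarith
  -- construct on [0, k / n]
  have key : ∀ k : ℕ, k ≤ n → ∃ μ : ℝ → ℂ, ContinuousOn μ (Icc 0 (k / n)) ∧
      (∀ τ ∈ Icc (0 : ℝ) (k / n), μ τ ^ 2 = f τ) ∧ μ 0 = 1 := by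
    intro k
    induction k with
    | zero =>
      intro _
      refine ⟨fun _ => 1, continuousOn_const, fun τ hτ => ?_, rfl⟩
      have : τ = 0 := by
        have h2 := hτ.2
        simp only [Nat.cast_zero, zero_div] at h2
        exact le_antisymm h2 hτ.1
      rw [this, h0, one_pow]
    | succ k ih =>
      intro hk
      obtain ⟨μ, hc, hsq, hμ0⟩ := ih (by omega)
      set a : ℝ := k / n with ha
      have ha0 : 0 ≤ a := by positivity
      have hb : ((k + 1 : ℕ) : ℝ) / n = a + 1 / n := by push_cast; rw [ha]; ring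
      have hb1 : a + 1 / n ≤ 1 := by
        rw [← hb, div_le_one hn0]
        exact_mod_cast hk
      have ha1 : a ∈ Icc (0 : ℝ) 1 := ⟨ha0, by
        have : (0 : ℝ) < 1 / n := by positivity
        linarith⟩
      rw [hb]
      have hfa : f a ≠ 0 := fun h => by
        have := hn a ha1
        rw [h, norm_zero] at this
        exact zero_ne_one this
      have hq : ∀ τ ∈ Icc a (a + 1 / n), ‖f τ / f a - 1‖ < 1 := by
        intro τ hτ
        have h1 := hd τ ⟨ha0.trans hτ.1, hτ.2.trans hb1⟩ a ha1 (by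
          rw [Real.dist_eq, abs_of_nonneg (by linarith [hτ.1])]
          linarith [hτ.2])
        have h2 : f τ / f a - 1 = (f τ - f a) / f a := by field_simp
        rw [h2, norm_div, hn a ha1, div_one, ← dist_eq_norm]
        exact h1
      let ν : ℝ → ℂ := fun τ => if τ ≤ a then μ τ else μ a * rt (f τ / f a)
      have n1 : ∀ τ ∈ Icc (0 : ℝ) a, ν τ = μ τ := fun τ hτ => if_pos hτ.2
      have n2 : ∀ τ ∈ Icc a (a + 1 / n), ν τ = μ a * rt (f τ / f a) := by
        intro τ hτ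
        rcases hτ.1.eq_or_lt with rfl | h
        · simp only [ν, if_pos le_rfl]
          rw [div_self hfa, rt_one, mul_one]
        · simp only [ν, if_neg (not_le.2 h)]
      have h1n : (0 : ℝ) ≤ 1 / n := by positivity
      have hcov : Icc (0 : ℝ) (a + 1 / n) = Icc 0 a ∪ Icc a (a + 1 / n) := by
        rw [Icc_union_Icc_eq_Icc ha0 (by linarith)]
      refine ⟨ν, ?_, fun τ hτ => ?_, ?_⟩
      · rw [hcov]
        refine ContinuousOn.union_of_isClosed (hc.congr n1) ?_ isClosed_Icc isClosed_Icc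
        refine ContinuousOn.congr ?_ n2
        refine continuousOn_const.mul fun τ hτ => ?_
        have h3 : ContinuousWithinAt (fun τ => f τ / f a) (Icc a (a + 1 / n)) τ :=
          ((hf.mono (Icc_subset_Icc ha0 hb1)) τ hτ).div_const _
        exact ContinuousAt.comp_continuousWithinAt (f := fun τ => f τ / f a)
          (continuousAt_rt (mem_slit (hq τ hτ))) h3
      · rw [hcov] at hτ
        rcases hτ with h | h
        · rw [n1 τ h, hsq τ h]
        · rw [n2 τ h, mul_pow, hsq a ⟨ha0, le_rfl⟩, rt_sq, mul_div_cancel₀ _ hfa]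
          refine div_ne_zero (fun h5 => ?_) hfa
          have := hn τ ⟨ha0.trans h.1, h.2.trans hb1⟩
          rw [h5, norm_zero] at this
          exact zero_ne_one this
      · rw [n1 0 ⟨le_rfl, ha0⟩, hμ0]
  obtain ⟨μ, h1, h2, h3⟩ := key n le_rfl
  rw [div_self hn0.ne'] at h1 h2
  exact ⟨μ, h1, h2, h3⟩

/-! ### Thin homotopies -/

/-- The paths of `PF a b t` with transport in `S`. -/
def PV (κ : M → M → ℂ) (a b : M) (t : ℝ) (S : Set ℂ) : Set (ℝ → M) :=
  {w | w ∈ PF a b t ∧ U κ w 0 t ∈ S}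

theorem PV.of_family {S : Set ℂ} {H : ℝ → ℝ → M} {t : ℝ}
    (h1 : ∀ s ∈ Icc (0 : ℝ) 1, H s ∈ PV κ a b t S)
    (h2 : ∀ u, ContinuousOn (fun s => H s u) (Icc 0 1)) : JoinedIn (PV κ a b t S) (H 0) (H 1) :=
  JoinedIn.ofLine (f := H) (continuousOn_pi.2 h2) rfl rfl (image_subset_iff.2 h1)

theorem PV.mono {S S' : Set ℂ} (h : Ker κ A r) (ht : 0 ≤ t) (htt : t ≤ t') (hS : S ⊆ S') :
    PV κ a b t S ⊆ PV κ a b t' S' := fun w hw =>
  ⟨PF.mono htt hw.1, by rw [U_extend h ht htt hw.1]; exact hS hw.2⟩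

theorem PV.cat_left {S S' : Set ℂ} (h : Ker κ A r) (ht : 0 ≤ t) (ht' : 0 ≤ t')
    (hj : JoinedIn (PV κ a b t S) w w') (hw : w'' ∈ PF b c t')
    (hS : ∀ z ∈ S, z * U κ w'' 0 t' ∈ S') :
    JoinedIn (PV κ a c (t + t') S') (cat t w w'') (cat t w' w'') :=
  H250.joinedIn_map (f := fun w => cat t w w'') hj
    (H250.continuous_cat_left t w'').continuousOn fun _ hx =>
    ⟨cat_mem ht ht' hx.1 hw, by rw [U_cat h ht ht' hx.1 hw]; exact hS _ hx.2⟩

theorem PV.cat_right {S S' : Set ℂ} (h : Ker κ A r) (ht : 0 ≤ t) (ht' : 0 ≤ t')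
    (hw : w'' ∈ PF a b t) (hj : JoinedIn (PV κ b c t' S) w w')
    (hS : ∀ z ∈ S, U κ w'' 0 t * z ∈ S') :
    JoinedIn (PV κ a c (t + t') S') (cat t w'' w) (cat t w'' w') :=
  H250.joinedIn_map (f := fun w => cat t w'' w) hj
    (H250.continuous_cat_right t w'').continuousOn fun _ hx =>
    ⟨cat_mem ht ht' hw hx.1, by rw [U_cat h ht ht' hw hx.1]; exact hS _ hx.2⟩

/-- Waiting between two paths. -/
theorem PV.wait (h : Ker κ A r) (ht : 0 ≤ t) (htt : t ≤ t₁) (ht' : 0 ≤ t') (hw : w ∈ PF a b t)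
    (hw' : w' ∈ PF b c t') :
    JoinedIn (PV κ a c (t₁ + t') {U κ w 0 t * U κ w' 0 t'}) (cat t w w') (cat t₁ w w') := by
  have key := PV.of_family (κ := κ) (a := a) (b := c) (t := t₁ + t')
    (S := {U κ w 0 t * U κ w' 0 t'}) (H := fun s => cat (t + s * (t₁ - t)) w w') ?_ ?_
  · simpa using key
  · intro s hs
    have h1 : 0 ≤ s * (t₁ - t) := mul_nonneg hs.1 (by linarith)
    have h2 : s * (t₁ - t) ≤ t₁ - t := mul_le_of_le_one_left (by linarith) hs.2
    have hw1 : w ∈ PF a b (t + s * (t₁ - t)) := PF.mono (by linarith) hw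
    have hc := cat_mem (by linarith) ht' hw1 hw'
    refine ⟨PF.mono (by linarith) hc, ?_⟩
    rw [U_extend h (by linarith) (by linarith) hc, U_cat h (by linarith) ht' hw1 hw',
      U_extend h ht (by linarith : t ≤ t + s * (t₁ - t)) hw]
    rfl
  · intro u
    rcases le_or_gt u t with hu | hu
    · refine ContinuousOn.congr (f := fun _ => w u) continuousOn_const fun s hs => ?_
      exact cat_of_le (hu.trans (by nlinarith [hs.1, hs.2]))
    · refine ContinuousOn.congr (f := fun s => w' (u - (t + s * (t₁ - t)))) ?_ fun s hs => ?_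
      · exact ((PF.cont hw').comp (by fun_prop)).continuousOn
      · simp only
        rcases le_or_gt u (t + s * (t₁ - t)) with h1 | h1
        · rw [cat_of_le h1, hw.2.2 u hu.le, hw'.2.1 _ (by linarith)]
        · rw [cat_of_lt h1]

theorem mul_conj_U (h : Ker κ A r) (w : ℝ → M) (t : ℝ) : U κ w 0 t * conj (U κ w 0 t) = 1 := by
  rw [Complex.mul_conj, Complex.normSq_eq_norm_sq, h.norm_U]
  norm_num

/-- A path followed by its reverse. -/
theorem PV.spur (h : Ker κ A r) (ht : 0 ≤ t) (hw : w ∈ PF a b t) :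
    JoinedIn (PV κ b b (t + t) {1}) (fun _ => b) (cat t (rev t w) w) := by
  have hv := rev_mem hw
  have e : ∀ s, (fun u => rev t w (min u (2 * s * t - u))) =
      cat (s * t) (H250.hd (s * t) (rev t w)) (rev (s * t) (H250.hd (s * t) (rev t w))) := by
    intro s
    funext u
    rcases le_or_gt u (s * t) with h1 | h1
    · rw [cat_of_le h1, min_eq_left (by linarith)]
      show _ = rev t w (min u (s * t))
      rw [min_eq_left h1]
    · rw [cat_of_lt h1, min_eq_right (by linarith)]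
      show _ = rev t w (min (s * t - (u - s * t)) (s * t))
      rw [min_eq_left (by linarith)]
      congr 1
      ring
  have key := PV.of_family (κ := κ) (a := b) (b := b) (t := t + t) (S := {1})
    (H := fun s u => rev t w (min u (2 * s * t - u))) ?_ ?_
  · convert key using 1
    · funext u
      refine (hv.2.1 _ ?_).symm
      rcases le_total u 0 with h | h
      · exact (min_le_left _ _).trans h
      · exact (min_le_right _ _).trans (by linarith)
    · funext u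
      rcases le_or_gt u t with h | h
      · rw [cat_of_le h, min_eq_left (by linarith)]
      · rw [cat_of_lt h, min_eq_right (by linarith), rev]
        congr 1
        ring
  · intro s hs
    have h0 : 0 ≤ s * t := mul_nonneg hs.1 ht
    have h1 : s * t ≤ t := mul_le_of_le_one_left ht hs.2
    have m1 := H250.hd_mem h0 hv
    have m2 := rev_mem m1
    have m3 := cat_mem h0 h0 m1 m2
    show (fun u => rev t w (min u (2 * s * t - u))) ∈ _
    rw [e s]
    refine ⟨PF.mono (by linarith) m3, ?_⟩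
    rw [U_extend h (by linarith) (by linarith) m3, U_cat h h0 h0 m1 m2, U_rev h h0 m1,
      mul_conj_U h]
    rfl
  · intro u
    exact ((PF.cont hv).comp (by fun_prop)).continuousOn

/-! ### The square root of the holonomy -/

variable {σ : (ℝ → M) → ℂ}

/-- The square root is moved little if the holonomy is moved little. -/
theorem sec_close [CompactSpace M] (h : Ker κ A r) (hs : H494E.IsSec κ x₀ σ) (ht : 0 ≤ t) {z : ℂ}
    (hz : ‖z‖ = 1) {ε : ℝ} (hε : ε < 1) (hj : JoinedIn (PV κ x₀ x₀ t (Metric.closedBall z ε)) w w') :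
    ‖σ w' - σ w‖ ≤ 2 * ε * ‖σ w‖ := by
  obtain ⟨γ, hγ⟩ := hj
  let g : ℝ → ℝ → M := fun τ => γ.extend τ
  have hg : ∀ τ ∈ Icc (0 : ℝ) 1, g τ ∈ PV κ x₀ x₀ t (Metric.closedBall z ε) := fun τ hτ => by
    have : g τ = γ ⟨τ, hτ⟩ := γ.extend_apply hτ
    rw [this]
    exact hγ _
  have hgc : ContinuousOn g (Icc 0 1) := γ.continuous_extend.continuousOn
  have hUc : ContinuousOn (fun τ => U κ (g τ) 0 t) (Icc 0 1) :=
    continuousOn_U h ht hgc fun τ hτ => (hg τ hτ).1
  obtain ⟨ν, hν1, hν⟩ : ∃ w : ℂ, ‖w‖ = 1 ∧ w ^ 2 = z := by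
    have hz0 : z ≠ 0 := fun h0 => by
      rw [h0, norm_zero] at hz
      exact zero_ne_one hz
    refine ⟨rt z, ?_, rt_sq hz0⟩
    have h1 : ‖rt z‖ ^ 2 = 1 := by rw [← norm_pow, rt_sq hz0, hz]
    nlinarith [norm_nonneg (rt z)]
  have hz1 : z * conj z = 1 := by
    rw [Complex.mul_conj, Complex.normSq_eq_norm_sq, hz]; norm_num
  have hq : ∀ τ ∈ Icc (0 : ℝ) 1, ‖U κ (g τ) 0 t * conj z - 1‖ ≤ ε := fun τ hτ => by
    have h1 := (hg τ hτ).2
    rw [Metric.mem_closedBall, dist_eq_norm] at h1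
    have h2 : U κ (g τ) 0 t * conj z - 1 = (U κ (g τ) 0 t - z) * conj z := by
      rw [sub_mul, hz1]
    rw [h2, norm_mul, RCLike.norm_conj, hz, mul_one]
    exact h1
  have hne : ∀ τ, U κ (g τ) 0 t * conj z ≠ 0 := fun τ h0 => by
    have : ‖U κ (g τ) 0 t * conj z‖ = 1 := by
      rw [norm_mul, h.norm_U, RCLike.norm_conj, hz, one_mul]
    rw [h0, norm_zero] at this
    exact zero_ne_one this
  let μ : ℝ → ℂ := fun τ => ν * rt (U κ (g τ) 0 t * conj z)
  have hμ := hs.move t g μ ht hgc (fun τ hτ => (hg τ hτ).1) (by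
    refine continuousOn_const.mul fun τ hτ => ?_
    exact ContinuousAt.comp_continuousWithinAt (f := fun τ => U κ (g τ) 0 t * conj z)
      (continuousAt_rt (mem_slit ((hq τ hτ).trans_lt hε)))
      ((hUc.mul (continuousOn_const (c := conj z))) τ hτ)) fun τ hτ => by
    simp only [μ]
    rw [mul_pow, hν, rt_sq (hne τ)]
    linear_combination (U κ (g τ) 0 t) * hz1
  have e0 : g 0 = w := γ.extend_zero
  have e1 : g 1 = w' := γ.extend_one
  rw [e0, e1] at hμ
  have b : ∀ τ ∈ Icc (0 : ℝ) 1, ‖μ τ - ν‖ ≤ ε := fun τ hτ => by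
    have h1 : μ τ - ν = ν * (rt (U κ (g τ) 0 t * conj z) - 1) := by simp only [μ]; ring
    rw [h1, norm_mul, hν1, one_mul]
    exact (norm_rt_sub_one (hne τ)).trans (hq τ hτ)
  have b0 := b 0 ⟨le_rfl, zero_le_one⟩
  have b1 := b 1 ⟨zero_le_one, le_rfl⟩
  have hμ0 : ‖μ 0‖ = 1 := by
    have h1 : ‖μ 0‖ ^ 2 = 1 := by
      rw [← norm_pow]
      simp only [μ]
      rw [mul_pow, hν, rt_sq (hne 0), norm_mul, norm_mul, hz, h.norm_U, RCLike.norm_conj, hz]
      norm_num
    nlinarith [norm_nonneg (μ 0)]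
  have e2 : (σ w' - σ w) * μ 0 = σ w * (μ 1 - μ 0) := by linear_combination hμ
  have e3 : ‖σ w' - σ w‖ = ‖σ w‖ * ‖μ 1 - μ 0‖ := by
    calc ‖σ w' - σ w‖ = ‖(σ w' - σ w) * μ 0‖ := by rw [norm_mul _ (μ 0), hμ0, mul_one]
      _ = ‖σ w * (μ 1 - μ 0)‖ := by rw [e2]
      _ = _ := norm_mul _ _
  rw [e3]
  have e4 : ‖μ 1 - μ 0‖ ≤ 2 * ε := by
    have : μ 1 - μ 0 = (μ 1 - ν) - (μ 0 - ν) := by ring
    rw [this]
    refine (norm_sub_le _ _).trans ?_
    linarith
  calc ‖σ w‖ * ‖μ 1 - μ 0‖ ≤ ‖σ w‖ * (2 * ε) := by gcongr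
    _ = _ := by ring

/-- The square root is constant along thin homotopies. -/
theorem sec_thin [CompactSpace M] (h : Ker κ A r) (hs : H494E.IsSec κ x₀ σ) (ht : 0 ≤ t) {z : ℂ}
    (hj : JoinedIn (PV κ x₀ x₀ t {z}) w w') : σ w' = σ w := by
  have hz : ‖z‖ = 1 := by
    obtain ⟨_, h1⟩ := hj.source_mem
    rw [← Set.mem_singleton_iff.1 h1, h.norm_U]
  have h1 := sec_close h hs ht hz (ε := 0) zero_lt_one (by
    refine hj.mono fun w hw => ⟨hw.1, ?_⟩
    rw [Set.mem_singleton_iff.1 hw.2]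
    exact Metric.mem_closedBall_self le_rfl)
  simp only [mul_zero, zero_mul] at h1
  exact sub_eq_zero.1 (norm_le_zero_iff.1 h1)

/-- Lift along a path from the constant loop. -/
theorem sec_lift [CompactSpace M] [SimplyConnectedSpace M] (hρ : 0 < ρ) (hU : UniqSeg M ρ)
    (h : Ker κ A r) (hs : H494E.IsSec κ x₀ σ) (ht : 0 ≤ t) (hw : w ∈ PF x₀ x₀ t) :
    ∃ (T : ℝ) (g : ℝ → ℝ → M) (μ : ℝ → ℂ), t ≤ T ∧ ContinuousOn g (Icc 0 1) ∧
      (∀ τ ∈ Icc (0 : ℝ) 1, g τ ∈ PF x₀ x₀ T) ∧ g 0 = (fun _ => x₀) ∧ g 1 = w ∧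
      ContinuousOn μ (Icc 0 1) ∧ (∀ τ ∈ Icc (0 : ℝ) 1, μ τ ^ 2 = U κ (g τ) 0 T) ∧ μ 0 = 1 ∧
      μ 1 = σ w := by
  obtain ⟨D, hD, -, hj⟩ := H250.exists_joinedIn hρ hU
  obtain ⟨γ, hγ⟩ := hj x₀ x₀ t ht (fun _ => x₀) (const_mem x₀ t) w hw
  let g : ℝ → ℝ → M := fun τ => γ.extend τ
  have hg : ∀ τ ∈ Icc (0 : ℝ) 1, g τ ∈ PF x₀ x₀ (t + D) := fun τ hτ => by
    have : g τ = γ ⟨τ, hτ⟩ := γ.extend_apply hτ
    rw [this]
    exact hγ _
  have hgc : ContinuousOn g (Icc 0 1) := γ.continuous_extend.continuousOn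
  have e0 : g 0 = fun _ => x₀ := γ.extend_zero
  have e1 : g 1 = w := γ.extend_one
  have hUc : ContinuousOn (fun τ => U κ (g τ) 0 (t + D)) (Icc 0 1) :=
    continuousOn_U h (by linarith) hgc hg
  obtain ⟨μ, h1, h2, h3⟩ := exists_lift_sqrt hUc (fun τ _ => h.norm_U _ _ _) (by
    simp only [e0]
    exact U_const h x₀ _ (by linarith))
  refine ⟨t + D, g, μ, by linarith, hgc, hg, e0, e1, h1, h2, h3, ?_⟩
  have := hs.move (t + D) g μ (by linarith) hgc hg h1 h2
  rw [e0, e1, hs.cst, h3, one_mul, mul_one] at this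
  exact this.symm

theorem sec_sq [CompactSpace M] [SimplyConnectedSpace M] (hρ : 0 < ρ) (hU : UniqSeg M ρ)
    (h : Ker κ A r) (hs : H494E.IsSec κ x₀ σ) (ht : 0 ≤ t) (hw : w ∈ PF x₀ x₀ t) :
    σ w ^ 2 = U κ w 0 t := by
  obtain ⟨T, g, μ, hT, -, -, -, e1, -, h2, -, h3⟩ := sec_lift hρ hU h hs ht hw
  rw [← h3, h2 1 ⟨zero_le_one, le_rfl⟩, e1, U_extend h ht hT hw]

theorem norm_sec [CompactSpace M] [SimplyConnectedSpace M] (hρ : 0 < ρ) (hU : UniqSeg M ρ)
    (h : Ker κ A r) (hs : H494E.IsSec κ x₀ σ) (ht : 0 ≤ t) (hw : w ∈ PF x₀ x₀ t) :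
    ‖σ w‖ = 1 := by
  have h1 : ‖σ w‖ ^ 2 = 1 := by rw [← norm_pow, sec_sq hρ hU h hs ht hw, h.norm_U]
  nlinarith [norm_nonneg (σ w)]

/-- The square root is multiplicative. -/
theorem sec_mul [CompactSpace M] [SimplyConnectedSpace M] (hρ : 0 < ρ) (hU : UniqSeg M ρ)
    (h : Ker κ A r) (hs : H494E.IsSec κ x₀ σ) (ht : 0 ≤ t) (ht' : 0 ≤ t') (hw : w ∈ PF x₀ x₀ t)
    (hw' : w' ∈ PF x₀ x₀ t') : σ (cat t w w') = σ w * σ w' := by
  obtain ⟨T, g, μ, hT, hgc, hg, e0, e1, h1, h2, h3, h4⟩ := sec_lift hρ hU h hs ht hw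
  have hT0 : 0 ≤ T := ht.trans hT
  -- waiting
  have k1 := sec_thin h hs (by linarith) (PV.wait h ht hT ht' hw hw')
  have k2 := sec_thin h hs (by linarith) (PV.wait h le_rfl hT0 ht' (const_mem x₀ 0) hw')
  rw [H250.cat_const hw'] at k2
  have hsq := sec_sq hρ hU h hs ht' hw'
  have k3 := hs.move (T + t') (fun τ => cat T (g τ) w') (fun τ => μ τ * σ w') (by linarith)
    ((H250.continuous_cat_left T w').comp_continuousOn hgc)
    (fun τ hτ => cat_mem hT0 ht' (hg τ hτ) hw') (h1.mul continuousOn_const) fun τ hτ => by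
      rw [mul_pow, h2 τ hτ, hsq, U_cat h hT0 ht' (hg τ hτ) hw']
  simp only [e0, e1, h3, h4, one_mul] at k3
  rw [k2] at k3
  have hne : σ w' ≠ 0 := fun h0 => by
    have := norm_sec hρ hU h hs ht' hw'
    rw [h0, norm_zero] at this
    exact zero_ne_one this
  rw [← k1]
  have k4 : σ (cat T w w') * σ w' = (σ w * σ w') * σ w' := by linear_combination k3
  exact mul_right_cancel₀ hne k4

end Vale.Agent.P216.E539
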