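import Vale.Agent.P216.E539.E3a
import Vale.Agent.P216.E539.E3b
import Vale.Agent.P216.E539.Roots
import Vale.Agent.P216.D773.IntC

/-!
# P216-E : sweeps at all points, from `H^*(M; ℚ) = ℚ[x] / (x ^ (h + 1))`, `x` of degree two
-/

open Set

namespace Vale.Agent.P216.E539

open Vale.Agent.P216.L250 Vale.Agent.P216.LS Vale.Agent.P216.H288 Vale.Agent.P216.H826

/-- Sweeps from an integral cocycle which is not exact modulo two. -/
theorem exists_sweeps_of_cocycle {M : Type} [MetricSpace M] [CompactSpace M]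
    [SimplyConnectedSpace M] {ρ : ℝ} (hρ : 0 < ρ) (hU : UniqSeg M ρ) (c : List M → ℤ)
    (hn : ∀ l : List M, ¬ l.IsChain (· ≠ ·) → c l = 0) {ε : ℝ} (hε : 0 < ε)
    (hc : ∀ x y z w : M, dist x y < ε → dist x z < ε → dist x w < ε → dist y z < ε →
      dist y w < ε → dist z w < ε → c [y, z, w] - c [x, z, w] + c [x, y, w] - c [x, y, z] = 0)
    (hne : ¬ Sl.ExL (univ : Set M) 2 fun l => (c l : ZMod 2)) :
    ∃ H : Hol M, ∀ x₀ : M, ∃ b w μ, IsSweep H x₀ b w μ := by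
  obtain ⟨b, κ, e, j, A, r, hr, hK⟩ := H923F.exists_kerL c hε hn hc
  refine ⟨hK.ker.toHol, ?_⟩
  by_contra hno
  obtain ⟨x₀, -⟩ := not_forall.1 hno
  have hw : ∀ b w lam, 0 ≤ b → ¬ WeakSweep hK.ker.toHol x₀ b w lam := fun b w lam hb h =>
    hno fun x => h.exists_sweep_all hρ hU hb x
  obtain ⟨s, hs⟩ := e3a M ρ hρ hU κ _ r hK.ker x₀ hw
  obtain ⟨σ, T, hR⟩ := e3b M ρ hρ hU κ _ r hK.ker x₀ s hs
  exact hne (exL_of_roots c hε hc hr hK hR)

/-- **Sweeps.** -/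
theorem exists_sweeps {M : Type} [MetricSpace M] [CompactSpace M] [SimplyConnectedSpace M]
    {ρ : ℝ} (hρ : 0 < ρ) (hU : UniqSeg M ρ) {h : ℕ} (hh : 1 ≤ h)
    (hQ : ASCoh.Monogenic M ℚ 2 h) :
    ∃ H : Hol M, ∀ x₀ : M, ∃ b w μ, IsSweep H x₀ b w μ := by
  obtain ⟨c, hn, ⟨ε, hε, hc⟩, hne⟩ := D773.int_two hρ hU hh hQ 2
  exact exists_sweeps_of_cocycle hρ hU c hn hε hc hne

end Vale.Agent.P216.E539
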