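import Vale.Agent.P216.L250.Hol
import Vale.Agent.P216.H250.Pi0P

/-!
# P216-E : the transport along Moore-Lipschitz paths
-/

open Set Filter Topology
open scoped ComplexConjugate BoundedContinuousFunction

namespace Vale.Agent.P216.E539

open Vale.Agent.P216.L250
open Vale.Agent.P216.H250 (PF cat cat_of_le cat_of_lt cat_mem rev rev_mem PF.mono PF.zero PF.last
  PF.cont const_mem)

variable {M : Type} [MetricSpace M] {κ : M → M → ℂ} {A r : ℝ} {a b c : M} {s t t' : ℝ}
  {w w' : ℝ → M}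

theorem cert_lip {g : ℝ → M} (h : ∀ u v, dist (g u) (g v) ≤ |u - v|) (a b : ℝ) :
    Cert g (fun t => t) a b := by
  intro s t _ hst _
  have h1 := h s t
  rw [abs_sub_comm, abs_of_nonneg (by linarith)] at h1
  have h2 : (0 : ℝ) ≤ dist (g s) (g t) := dist_nonneg
  nlinarith

theorem hasE_lip {g : ℝ → M} (h : ∀ u v, dist (g u) (g v) ≤ |u - v|) : HasE g 1 :=
  ⟨fun t => t, fun s t hst => cert_lip h s t s t le_rfl hst le_rfl, fun _ => rfl⟩

/-- The transport along a 1-Lipschitz path is close to the kernel. -/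
theorem U_near_lip (h : Ker κ A r) {g : ℝ → M} (hg : ∀ u v, dist (g u) (g v) ≤ |u - v|) {x y : ℝ}
    (hxy : x ≤ y) (hr : y - x < r) : ‖U κ g x y - κ (g x) (g y)‖ ≤ A * (y - x) ^ 2 := by
  have h1 : Real.sqrt ((y - x) * ((fun t : ℝ => t) y - (fun t : ℝ => t) x)) = y - x := by
    show Real.sqrt ((y - x) * (y - x)) = y - x
    exact Real.sqrt_mul_self (by linarith)
  have h2 := h.U_near (e := fun t => t) (C := 1) (cert_lip hg) (fun t => rfl) hxy (by rwa [h1])
  refine h2.trans (le_of_eq ?_)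
  show A * ((y - x) * (y - x)) = _
  ring

theorem U_cat (h : Ker κ A r) (ht : 0 ≤ t) (ht' : 0 ≤ t') (hw : w ∈ PF a b t)
    (hw' : w' ∈ PF b c t') : U κ (cat t w w') 0 (t + t') = U κ w 0 t * U κ w' 0 t' := by
  have hc := cat_mem ht ht' hw hw'
  have e1 := h.U_comp (hasE_lip hw.1) (hasE_lip hc.1) (φ := fun u => u) (L := 1) ht
    (fun x y _ hxy _ => ⟨hxy, by linarith⟩) fun x _ h2 => cat_of_le h2
  have e2 := h.U_comp (hasE_lip hw'.1) (hasE_lip hc.1) (φ := fun u => u - t) (L := 1)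
    (a := t) (b := t + t') (by linarith) (fun x y _ hxy _ => ⟨by linarith, by linarith⟩)
    fun x h1 _ => by
      rcases h1.eq_or_lt with rfl | h1
      · rw [cat_of_le le_rfl, PF.last hw, sub_self, PF.zero hw']
      · exact cat_of_lt h1
  rw [← h.U_mul _ ht (by linarith : t ≤ t + t'), e1, e2]
  simp

theorem U_extend (h : Ker κ A r) (ht : 0 ≤ t) (htt : t ≤ t') (hw : w ∈ PF a b t) :
    U κ w 0 t' = U κ w 0 t := by
  have e1 := h.U_comp (hasE_lip hw.1) (hasE_lip hw.1) (φ := fun _ => t) (L := 1)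
    (a := t) (b := t') htt (fun x y _ hxy _ => ⟨le_rfl, by linarith⟩) fun x h1 _ => by
      rw [hw.2.2 x h1, hw.2.2 t le_rfl]
  rw [← h.U_mul _ ht htt, e1, h.U_self, mul_one]

theorem U_const (h : Ker κ A r) (a : M) (t : ℝ) (ht : 0 ≤ t) : U κ (fun _ => a) 0 t = 1 := by
  rw [U_extend h le_rfl ht (const_mem a 0), h.U_self]

theorem U_rev (h : Ker κ A r) (ht : 0 ≤ t) (hw : w ∈ PF a b t) :
    U κ (rev t w) 0 t = conj (U κ w 0 t) := by
  have hv := rev_mem hw
  have key := (h.mult_U (rev t w) 0 t).eq_of_near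
    (W := fun x y => conj (U κ w (t - y) (t - x)))
    ⟨fun _ _ _ _ _ => by rw [RCLike.norm_conj, h.norm_U], fun x y z h1 h2 h3 h4 => by
      rw [← map_mul, mul_comm, h.U_mul w (by linarith) (by linarith)]⟩ ht
    (e := fun t => t) (fun x y _ hxy _ => hxy)
    (F := 2 * A) (half_pos h.r_pos) (by simp [h.U_self]) fun x y h1 h2 h3 h4 => ?_
  · rw [key]
    simp
  have hr := h.r_pos
  have n1 := U_near_lip h hv.1 h2 (by linarith)
  have n2 := U_near_lip h hw.1 (x := t - y) (y := t - x) (by linarith) (by linarith)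
  have n2' : ‖conj (U κ w (t - y) (t - x)) - κ (w (t - x)) (w (t - y))‖ ≤ A * (y - x) ^ 2 := by
    rw [h.symm (w (t - y)) (w (t - x)), ← map_sub, RCLike.norm_conj]
    refine n2.trans (le_of_eq ?_)
    ring
  have n3 := norm_sub_le (U κ (rev t w) x y - κ (w (t - x)) (w (t - y)))
    (conj (U κ w (t - y) (t - x)) - κ (w (t - x)) (w (t - y)))
  rw [sub_sub_sub_cancel_right] at n3
  refine n3.trans ((add_le_add n1 n2').trans (le_of_eq ?_))
  show A * (y - x) ^ 2 + A * (y - x) ^ 2 = 2 * A * ((y - x) * (y - x))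
  ring

/-- Transports along close paths. -/
theorem U_close (h : Ker κ A r) {g g' : ℝ → M} (hg : ∀ u v, dist (g u) (g v) ≤ |u - v|)
    (hg' : ∀ u v, dist (g' u) (g' v) ≤ |u - v|) {D : ℝ} (hD : D < r)
    (hd : ∀ u, dist (g u) (g' u) ≤ D) (ht : 0 ≤ t) (h0 : g 0 = g' 0) (h1 : g t = g' t) :
    ‖U κ g 0 t - U κ g' 0 t‖ ≤ 2 * A * D * t := by
  have hA := h.A_nonneg
  have hD0 : 0 ≤ D := dist_nonneg.trans (hd 0)
  let W : ℝ → ℝ → ℂ := fun x y => κ (g x) (g' x) * U κ g' x y * κ (g' y) (g y)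
  have hW : Mult W 0 t :=
    ⟨fun x y _ _ _ => by simp only [W, norm_mul, h.norm_one, h.norm_U, mul_one],
      fun x y z h1 h2 h3 h4 => by
        simp only [W]
        rw [← h.U_mul g' h2 h3]
        linear_combination (κ (g x) (g' x) * U κ g' x y * U κ g' y z *
          κ (g' z) (g z)) * h.mul_symm (g' y) (g y)⟩
  have key := (h.mult_U g 0 t).compare hW ht (e := fun t => t) (fun x y _ hxy _ => hxy)
    (D := 2 * A * D) (F := 2 * A) (by positivity) (half_pos h.r_pos)
    (by simp only [W, h.U_self, mul_one, h.mul_symm]) fun x y h1 h2 h3 h4 => ?_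
  · have e1 : W 0 t = U κ g' 0 t := by
      simp only [W]
      rw [h0, h1, h.self, h.self, one_mul, mul_one]
    have e2 : Real.sqrt ((t - 0) * ((fun t : ℝ => t) t - (fun t : ℝ => t) 0)) = t := by
      show Real.sqrt ((t - 0) * (t - 0)) = t
      rw [sub_zero, Real.sqrt_mul_self ht]
    rw [e1, e2] at key
    exact key
  have hr := h.r_pos
  have hyx : y - x < r := by linarith
  have hyx0 : 0 ≤ y - x := by linarith
  have hs : Real.sqrt ((y - x) * ((fun t : ℝ => t) y - (fun t : ℝ => t) x)) = y - x := by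
    show Real.sqrt ((y - x) * (y - x)) = y - x
    exact Real.sqrt_mul_self (by linarith)
  have n1 := U_near_lip h hg h2 hyx
  have n2 := U_near_lip h hg' h2 hyx
  rw [hs]
  show ‖U κ g x y - W x y‖ ≤ 2 * A * D * (y - x) + 2 * A * ((y - x) * (y - x))
  set X := g x
  set Y := g y
  set X' := g' x
  set Y' := g' y
  have q1 : dist X Y ≤ y - x := by
    refine (hg x y).trans_eq ?_
    rw [abs_sub_comm, abs_of_nonneg hyx0]
  have q2 : dist X' Y' ≤ y - x := by
    refine (hg' x y).trans_eq ?_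
    rw [abs_sub_comm, abs_of_nonneg hyx0]
  have q3 : dist X X' ≤ D := hd x
  have q4 : dist Y' Y ≤ D := by rw [dist_comm]; exact hd y
  have t1 : ‖κ X X' * κ X' Y' - κ X Y'‖ ≤ A * dist X X' * dist X' Y' := by
    rw [h.norm_sub]
    exact h.area _ _ _ (q3.trans_lt hD) (q2.trans_lt hyx)
  have t2 : ‖κ X Y' * κ Y' Y - κ X Y‖ ≤ A * dist Y' Y * dist Y X := by
    rw [h.norm_sub, show κ X Y' * κ Y' Y * κ Y X - 1 = κ Y' Y * κ Y X * κ X Y' - 1 by ring]
    exact h.area _ _ _ (q4.trans_lt hD) (by rw [dist_comm]; exact q1.trans_lt hyx)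
  have t3 : ‖κ X X' * κ X' Y' * κ Y' Y - κ X Y‖ ≤ 2 * A * D * (y - x) := by
    have e1 : κ X X' * κ X' Y' * κ Y' Y - κ X Y =
        (κ X X' * κ X' Y' - κ X Y') * κ Y' Y + (κ X Y' * κ Y' Y - κ X Y) := by ring
    rw [e1]
    refine (norm_add_le _ _).trans ?_
    rw [norm_mul, h.norm_one, mul_one]
    have r1 : A * dist X X' * dist X' Y' ≤ A * D * (y - x) := by gcongr
    have r2 : A * dist Y' Y * dist Y X ≤ A * D * (y - x) := by
      rw [dist_comm Y X]
      gcongr
    linarith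
  have t4 : ‖κ X X' * U κ g' x y * κ Y' Y - κ X X' * κ X' Y' * κ Y' Y‖ ≤ A * (y - x) ^ 2 := by
    have e1 : κ X X' * U κ g' x y * κ Y' Y - κ X X' * κ X' Y' * κ Y' Y =
        κ X X' * (U κ g' x y - κ X' Y') * κ Y' Y := by ring
    rw [e1, norm_mul, norm_mul, h.norm_one, h.norm_one, one_mul, mul_one]
    exact n2
  have e1 : U κ g x y - W x y = (U κ g x y - κ X Y) -
      (κ X X' * κ X' Y' * κ Y' Y - κ X Y) -
      (κ X X' * U κ g' x y * κ Y' Y - κ X X' * κ X' Y' * κ Y' Y) := by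
    simp only [W]
    ring
  rw [e1]
  have := norm_sub_le ((U κ g x y - κ X Y) - (κ X X' * κ X' Y' * κ Y' Y - κ X Y))
    (κ X X' * U κ g' x y * κ Y' Y - κ X X' * κ X' Y' * κ Y' Y)
  have := norm_sub_le (U κ g x y - κ X Y) (κ X X' * κ X' Y' * κ Y' Y - κ X Y)
  nlinarith

/-- The transport is continuous along families of paths, continuous pointwise. -/
theorem continuousOn_U [CompactSpace M] (h : Ker κ A r) (ht : 0 ≤ t) {X : Type}
    [TopologicalSpace X] {S : Set X} {γ : X → ℝ → M} (hγ : ContinuousOn γ S)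
    (hm : ∀ x ∈ S, γ x ∈ PF a b t) : ContinuousOn (fun x => U κ (γ x) 0 t) S := by
  have hmem : ∀ x ∈ S, PS.mo (γ x) ∈ PS.P a b t := fun x hx => H250.mo_mem_P (hm x hx)
  have hc : ContinuousOn (fun x => PS.mo (γ x)) S := by
    refine PS.continuousOn_of_eval ht (fun x hx => PS.P_subset_PP (hmem x hx)) fun u => ?_
    refine ContinuousOn.congr (f := fun x => γ x u) ?_ fun x hx =>
      PS.Lip.mo_apply (hm x hx).1 u
    exact (continuous_apply u).comp_continuousOn hγ
  intro x hx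
  rw [ContinuousWithinAt, tendsto_iff_norm_sub_tendsto_zero]
  have h1 : Tendsto (fun y => dist (PS.mo (γ y)) (PS.mo (γ x))) (𝓝[S] x) (𝓝 0) :=
    tendsto_iff_dist_tendsto_zero.1 (hc x hx)
  have h2 : Tendsto (fun y => 2 * A * dist (PS.mo (γ y)) (PS.mo (γ x)) * t) (𝓝[S] x) (𝓝 0) := by
    have := (h1.const_mul (2 * A)).mul_const t
    simpa using this
  refine squeeze_zero' (Eventually.of_forall fun _ => norm_nonneg _) ?_ h2
  filter_upwards [self_mem_nhdsWithin, h1 (gt_mem_nhds h.r_pos)] with y hy hd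
  have hy' := hm y hy
  have hx' := hm x hx
  refine U_close h hy'.1 hx'.1 hd (fun u => ?_) ht (by rw [PF.zero hy', PF.zero hx'])
    (by rw [PF.last hy', PF.last hx'])
  have := BoundedContinuousFunction.dist_coe_le_dist (f := PS.mo (γ y)) (g := PS.mo (γ x)) u
  rwa [PS.Lip.mo_apply hy'.1, PS.Lip.mo_apply hx'.1] at this

end Vale.Agent.P216.E539
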